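import Mathlib

/-! Row 134 (free group factors): shared definitions and basic lemmas. -/

set_option autoImplicit false
set_option linter.unusedSectionVars false
set_option linter.unusedVariables false
set_option linter.unusedSimpArgs false

namespace Crest.Agent.R134

open scoped InnerProductSpace

/-- real group algebra -/
abbrev RG (G : Type*) := MonoidAlgebra ℝ G

/-- basis element -/
noncomputable abbrev e {G : Type*} (g : G) : RG G := MonoidAlgebra.single g 1

/-- ℓ¹ norm -/
noncomputable def n1 {G : Type*} (y : RG G) : ℝ := y.coeff.sum fun _ c => |c|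

/-- square of the ℓ² norm -/
noncomputable def nsq {G : Type*} (y : RG G) : ℝ := y.coeff.sum fun _ c => c ^ 2

/-- the involution `g ↦ g⁻¹` -/
noncomputable def sta {G : Type*} [Group G] : RG G →ₗ[ℝ] RG G :=
  (MonoidAlgebra.mapDomainLinearEquiv ℝ ℝ (Equiv.inv G)).toLinearMap

/-- derivation -/
def IsDer {A : Type*} [Ring A] [Algebra ℝ A] (X : A →ₗ[ℝ] A) : Prop :=
  ∀ y z, X (y * z) = X y * z + y * X z

/-- analytic growth bound for the iterates of `X` with respect to the gauge `N` -/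
def Growth {A : Type*} [Ring A] [Algebra ℝ A] (X : A →ₗ[ℝ] A) (N : A → ℝ) : Prop :=
  ∃ ρ : ℝ, 0 < ρ ∧ ∀ y, ∃ C : ℝ, ∀ n : ℕ, N ((X ^ n) y) ≤ C * ρ ^ n * n.factorial

/-- `pre a b k = ∏_{j=1}^k b^j a` -/
def pre {Γ : Type*} [Group Γ] (a b : Γ) : ℕ → Γ
  | 0 => 1
  | k + 1 => pre a b k * (b ^ (k + 1) * a)

/-- sum of the prefixes ending with an `a` -/
noncomputable def Jel {Γ : Type*} [Group Γ] (a b : Γ) (L : ℕ) : RG Γ :=
  ∑ k ∈ Finset.range L, e (pre a b (k + 1))

section Rep

variable {H : Type*} [NormedAddCommGroup H] [InnerProductSpace ℂ H] [CompleteSpace H]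
variable {Λ : Type*} [Group Λ]

/-- extension of a representation to the real group algebra -/
noncomputable abbrev ev (π : Λ →* (H →L[ℂ] H)) : RG Λ →ₐ[ℝ] (H →L[ℂ] H) :=
  MonoidAlgebra.lift ℝ (H →L[ℂ] H) Λ π

/-- unitary representation with values in `M` -/
structure URep (M : StarSubalgebra ℂ (H →L[ℂ] H)) (π : Λ →* (H →L[ℂ] H)) : Prop where
  mem : ∀ g, π g ∈ M
  star_eq : ∀ g, star (π g) = π g⁻¹

/-- the vector state of `Ω` restricts to the regular trace -/
def Reg (π : Λ →* (H →L[ℂ] H)) (Ω : H) : Prop := ∀ g, g ≠ 1 → ⟪Ω, π g Ω⟫_ℂ = 0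

/-- `Ω` is cyclic -/
def Tot (π : Λ →* (H →L[ℂ] H)) (Ω : H) : Prop :=
  Dense (Submodule.span ℂ (Set.range fun g => π g Ω) : Set H)

/-- the three conditions together -/
structure Good (M : StarSubalgebra ℂ (H →L[ℂ] H)) (Ω : H) (π : Λ →* (H →L[ℂ] H)) : Prop where
  urep : URep M π
  reg : Reg π Ω
  tot : Tot π Ω

/-- what is used about a finite von Neumann algebra with trace vector `Ω` -/
structure Setup (M : StarSubalgebra ℂ (H →L[ℂ] H)) (Ω : H) : Prop where
  norm_one : ‖Ω‖ = 1
  closed : IsClosed (M : Set (H →L[ℂ] H))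
  norm_star : ∀ x ∈ M, ‖(star x) Ω‖ = ‖x Ω‖
  complete : ∀ u : ℕ → (H →L[ℂ] H), (∀ k, u k ∈ M) → (∀ k, u k ∈ unitary (H →L[ℂ] H)) →
    CauchySeq (fun k => u k Ω) →
    ∃ v ∈ M, v ∈ unitary (H →L[ℂ] H) ∧ Filter.Tendsto (fun k => u k Ω) Filter.atTop (nhds (v Ω))

end Rep

/-- the perturbation statement (proved in `Step.lean`, consumed in `Baire.lean`) -/
def StepProp {H : Type*} [NormedAddCommGroup H] [InnerProductSpace ℂ H] [CompleteSpace H]
    (M : StarSubalgebra ℂ (H →L[ℂ] H)) (Ω : H) (ι : Type*) : Prop :=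
  ∀ π : FreeGroup (Option ι) →* (H →L[ℂ] H), Good M Ω π → ∀ ε : ℝ, 0 < ε →
    ∃ (π' : FreeGroup (Option ι) →* (H →L[ℂ] H)) (W : FreeGroup ι), Good M Ω π' ∧
      (∀ i, ‖π' (FreeGroup.of (some i)) Ω - π (FreeGroup.of (some i)) Ω‖ ≤ ε) ∧
      ‖π' (FreeGroup.map some W) Ω - π (FreeGroup.of none) Ω‖ ≤ ε

/-! ### basic lemmas -/

section Basic

variable {G : Type*}

theorem n1_eq (y : RG G) {s : Finset G} (hs : y.coeff.support ⊆ s) :
    n1 y = ∑ g ∈ s, |y.coeff g| :=
  Finsupp.sum_of_support_subset _ hs _ (by simp)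

theorem nsq_eq (y : RG G) {s : Finset G} (hs : y.coeff.support ⊆ s) :
    nsq y = ∑ g ∈ s, y.coeff g ^ 2 :=
  Finsupp.sum_of_support_subset _ hs _ (by simp)

theorem n1_nonneg (y : RG G) : 0 ≤ n1 y := Finset.sum_nonneg fun _ _ => abs_nonneg _

theorem nsq_nonneg (y : RG G) : 0 ≤ nsq y := Finset.sum_nonneg fun _ _ => sq_nonneg _

@[simp] theorem n1_zero : n1 (0 : RG G) = 0 := by simp [n1]

@[simp] theorem nsq_zero : nsq (0 : RG G) = 0 := by simp [nsq]

@[simp] theorem n1_single (g : G) (c : ℝ) : n1 (MonoidAlgebra.single g c) = |c| := by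
  simp [n1]

@[simp] theorem nsq_single (g : G) (c : ℝ) : nsq (MonoidAlgebra.single g c) = c ^ 2 := by
  simp [nsq]

theorem n1_add_le (y z : RG G) : n1 (y + z) ≤ n1 y + n1 z := by
  classical
  rw [n1_eq (y + z) (s := y.coeff.support ∪ z.coeff.support) Finsupp.support_add,
    n1_eq y (s := y.coeff.support ∪ z.coeff.support) Finset.subset_union_left,
    n1_eq z (s := y.coeff.support ∪ z.coeff.support) Finset.subset_union_right,
    ← Finset.sum_add_distrib]
  exact Finset.sum_le_sum fun g _ => by simpa using abs_add_le _ _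

theorem n1_sum_le {κ : Type*} (s : Finset κ) (f : κ → RG G) :
    n1 (∑ i ∈ s, f i) ≤ ∑ i ∈ s, n1 (f i) :=
  Finset.le_sum_of_subadditive n1 n1_zero.le n1_add_le s f

theorem n1_smul (c : ℝ) (y : RG G) : n1 (c • y) = |c| * n1 y := by
  rw [n1_eq (c • y) (s := y.coeff.support) Finsupp.support_smul, n1_eq y subset_rfl,
    Finset.mul_sum]
  exact Finset.sum_congr rfl fun g _ => by simp [abs_mul]

theorem nsq_smul (c : ℝ) (y : RG G) : nsq (c • y) = c ^ 2 * nsq y := by
  rw [nsq_eq (c • y) (s := y.coeff.support) Finsupp.support_smul, nsq_eq y subset_rfl,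
    Finset.mul_sum]
  exact Finset.sum_congr rfl fun g _ => by simp [mul_pow]

theorem nsq_neg (y : RG G) : nsq (-y) = nsq y := by
  have := nsq_smul (-1) y
  simpa using this

/-- Pythagoras for pairwise disjoint supports -/
theorem nsq_sum_of_disjoint {κ : Type*} (s : Finset κ) (f : κ → RG G)
    (h : ∀ i ∈ s, ∀ j ∈ s, i ≠ j → ∀ g, (f i).coeff g = 0 ∨ (f j).coeff g = 0) :
    nsq (∑ i ∈ s, f i) = ∑ i ∈ s, nsq (f i) := by
  classical
  set T : Finset G := s.biUnion fun i => (f i).coeff.support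
  have h1 : (∑ i ∈ s, f i).coeff.support ⊆ T := by
    rw [MonoidAlgebra.coeff_sum]; exact Finsupp.support_finsetSum
  rw [nsq_eq _ h1, Finset.sum_congr rfl fun i hi =>
    nsq_eq (f i) (s := T) (Finset.subset_biUnion_of_mem (fun i => (f i).coeff.support) hi),
    Finset.sum_comm]
  refine Finset.sum_congr rfl fun g _ => ?_
  rw [MonoidAlgebra.coeff_sum, Finsupp.finsetSum_apply, sq, Finset.sum_mul_sum]
  refine Finset.sum_congr rfl fun i hi => ?_
  rw [Finset.sum_eq_single_of_mem i hi, sq]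
  intro j hj hji
  rcases h i hi j hj hji.symm g with h0 | h0 <;> simp [h0]

theorem nsq_add_of_disjoint (y z : RG G) (h : ∀ g, y.coeff g = 0 ∨ z.coeff g = 0) :
    nsq (y + z) = nsq y + nsq z := by
  have := nsq_sum_of_disjoint (Finset.univ : Finset Bool) (fun b => if b then y else z) (by
    intro i _ j _ hij g
    cases i <;> cases j <;> simp_all [or_comm])
  simpa using this

variable [Group G]

theorem e_mul_e (g h : G) : (e g : RG G) * e h = e (g * h) := by
  simp [MonoidAlgebra.single_mul_single]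

theorem e_one : (e 1 : RG G) = 1 := rfl

theorem coeff_e_mul (g : G) (y : RG G) (h : G) : (e g * y).coeff h = y.coeff (g⁻¹ * h) := by
  simp [MonoidAlgebra.coeff_single_mul_apply]

theorem coeff_mul_e (y : RG G) (g h : G) : (y * e g).coeff h = y.coeff (h * g⁻¹) := by
  simp [MonoidAlgebra.coeff_mul_single_apply]

theorem sum_coeff_equiv (φ : G ≃ G) (y z : RG G) (h : ∀ g, z.coeff (φ g) = y.coeff g)
    (F : ℝ → ℝ) (hF : F 0 = 0) :
    (z.coeff.sum fun _ c => F c) = y.coeff.sum fun _ c => F c := by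
  have : z.coeff = Finsupp.equivMapDomain φ y.coeff := by
    ext g; simp [← h]
  rw [this, Finsupp.sum_equivMapDomain]

theorem nsq_e_mul (g : G) (y : RG G) : nsq (e g * y) = nsq y :=
  sum_coeff_equiv (Equiv.mulLeft g) y _ (fun h => by simp [coeff_e_mul]) (· ^ 2) (by simp)

theorem nsq_mul_e (y : RG G) (g : G) : nsq (y * e g) = nsq y :=
  sum_coeff_equiv (Equiv.mulRight g) y _ (fun h => by simp [coeff_mul_e]) (· ^ 2) (by simp)

theorem n1_e_mul (g : G) (y : RG G) : n1 (e g * y) = n1 y :=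
  sum_coeff_equiv (Equiv.mulLeft g) y _ (fun h => by simp [coeff_e_mul]) (|·|) (by simp)

theorem n1_mul_e (y : RG G) (g : G) : n1 (y * e g) = n1 y :=
  sum_coeff_equiv (Equiv.mulRight g) y _ (fun h => by simp [coeff_mul_e]) (|·|) (by simp)

theorem eq_sum_smul_e (y : RG G) : y = ∑ g ∈ y.coeff.support, y.coeff g • (e g : RG G) := by
  conv_lhs => rw [← MonoidAlgebra.sum_coeff_single y]
  simp [Finsupp.sum]

theorem n1_mul_le (y z : RG G) : n1 (y * z) ≤ n1 y * n1 z := by
  conv_lhs => rw [eq_sum_smul_e y, Finset.sum_mul]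
  refine (n1_sum_le _ _).trans (le_of_eq ?_)
  rw [n1_eq y subset_rfl, Finset.sum_mul]
  exact Finset.sum_congr rfl fun g _ => by rw [smul_mul_assoc, n1_smul, n1_e_mul]

@[simp] theorem sta_single (g : G) (c : ℝ) :
    sta (MonoidAlgebra.single g c) = MonoidAlgebra.single g⁻¹ c := by
  simp [sta]

theorem coeff_sta (y : RG G) (g : G) : (sta y).coeff g = y.coeff g⁻¹ := by
  simp [sta]

theorem sta_mul (y z : RG G) : sta (y * z) = sta z * sta y := by
  induction y using MonoidAlgebra.induction_linear with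
  | zero => simp
  | add a b ha hb => simp [add_mul, mul_add, ha, hb]
  | single g c =>
    induction z using MonoidAlgebra.induction_linear with
    | zero => simp
    | add a b ha hb => simp [add_mul, mul_add, ha, hb]
    | single h d => simp [MonoidAlgebra.single_mul_single, mul_comm]

/-- the coefficient of `1` is a trace -/
theorem coeff_one_mul_comm (y z : RG G) : (y * z).coeff 1 = (z * y).coeff 1 := by
  classical
  induction y using MonoidAlgebra.induction_linear with
  | zero => simp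
  | add a b ha hb => simp [add_mul, mul_add, ha, hb]
  | single g c =>
    simp [MonoidAlgebra.coeff_single_mul_apply, MonoidAlgebra.coeff_mul_single_apply, mul_comm]

theorem map_pre {Γ : Type*} [Group Γ] (f : Γ →* G) (a b : Γ) (k : ℕ) :
    f (pre a b k) = pre (f a) (f b) k := by
  induction k with
  | zero => simp [pre]
  | succ k ih => simp [pre, ih]

theorem IsDer.map_one {A : Type*} [Ring A] [Algebra ℝ A] {X : A →ₗ[ℝ] A} (h : IsDer X) :
    X 1 = 0 := by
  have := h 1 1
  simpa using this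

end Basic

section RepBasic

variable {H : Type*} [NormedAddCommGroup H] [InnerProductSpace ℂ H] [CompleteSpace H]
variable {Λ : Type*} [Group Λ] {M : StarSubalgebra ℂ (H →L[ℂ] H)} {π : Λ →* (H →L[ℂ] H)}

theorem ev_e (π : Λ →* (H →L[ℂ] H)) (g : Λ) : ev π (e g) = π g := by simp

theorem URep.mem_unitary (h : URep M π) (g : Λ) : π g ∈ unitary (H →L[ℂ] H) := by
  rw [Unitary.mem_iff, h.star_eq, ← map_mul, ← map_mul]; simp

theorem URep.norm_apply (h : URep M π) (g : Λ) (v : H) : ‖π g v‖ = ‖v‖ :=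
  ContinuousLinearMap.norm_map_of_mem_unitary (h.mem_unitary g) v

theorem URep.norm_le (h : URep M π) (g : Λ) : ‖π g‖ ≤ 1 :=
  ContinuousLinearMap.opNorm_le_bound _ zero_le_one fun v => by rw [h.norm_apply, one_mul]

theorem URep.inner_apply (h : URep M π) (g k : Λ) (v w : H) :
    ⟪π g v, π k w⟫_ℂ = ⟪v, π (g⁻¹ * k) w⟫_ℂ := by
  rw [map_mul, ← h.star_eq, ContinuousLinearMap.star_eq_adjoint, mul_apply_eq_comp,
    ContinuousLinearMap.adjoint_inner_right]

theorem URep.norm_ev_le (h : URep M π) (y : RG Λ) : ‖ev π y‖ ≤ n1 y := by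
  rw [MonoidAlgebra.lift_apply, Finsupp.sum, n1, Finsupp.sum]
  refine (norm_sum_le _ _).trans (Finset.sum_le_sum fun g _ => ?_)
  rw [norm_smul, Real.norm_eq_abs]
  exact mul_le_of_le_one_right (abs_nonneg _) (h.norm_le g)

theorem URep.ev_sta (h : URep M π) (y : RG Λ) : ev π (sta y) = star (ev π y) := by
  induction y using MonoidAlgebra.induction_linear with
  | zero => simp
  | add a b ha hb => simp only [map_add, ha, hb, star_add]
  | single g c => simp [h.star_eq]

theorem URep.ev_mem (h : URep M π) (y : RG Λ) : ev π y ∈ M := by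
  induction y using MonoidAlgebra.induction_linear with
  | zero => simp
  | add a b ha hb => rw [map_add]; exact add_mem ha hb
  | single g c =>
    rw [MonoidAlgebra.lift_single, ← Complex.coe_smul]
    exact M.smul_mem (h.mem g) _

theorem ev_apply_mem_span (π : Λ →* (H →L[ℂ] H)) (Ω : H) (y : RG Λ) :
    ev π y Ω ∈ Submodule.span ℂ (Set.range fun g => π g Ω) := by
  induction y using MonoidAlgebra.induction_linear with
  | zero => simp
  | add a b ha hb => rw [map_add]; exact add_mem ha hb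
  | single g c =>
    rw [MonoidAlgebra.lift_single, ← Complex.coe_smul]
    exact Submodule.smul_mem _ _ (Submodule.subset_span ⟨g, rfl⟩)

theorem Reg.inner_ev {Ω : H} (hr : Reg π Ω) (hΩ : ‖Ω‖ = 1) (y : RG Λ) :
    ⟪Ω, ev π y Ω⟫_ℂ = (y.coeff 1 : ℂ) := by
  classical
  induction y using MonoidAlgebra.induction_linear with
  | zero => simp
  | add a b ha hb => simp only [map_add, add_apply, inner_add_right, ha, hb,
      MonoidAlgebra.coeff_add, Finsupp.add_apply, Complex.ofReal_add]
  | single g c =>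
    rw [MonoidAlgebra.lift_single, ← Complex.coe_smul, smul_apply,
      inner_smul_right]
    by_cases hg : g = 1
    · subst hg
      simp [inner_self_eq_norm_sq_to_K, hΩ]
    · simp [hr g hg, Finsupp.single_apply, hg]

theorem coeff_one_sta_mul (y : RG Λ) : (sta y * y).coeff 1 = nsq y := by
  classical
  rw [MonoidAlgebra.coeff_mul_apply_right, nsq]
  refine Finsupp.sum_congr fun g _ => ?_
  simp [coeff_sta, sq]

theorem URep.norm_ev_apply_sq (h : URep M π) {Ω : H} (hr : Reg π Ω) (hΩ : ‖Ω‖ = 1) (y : RG Λ) :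
    ‖ev π y Ω‖ ^ 2 = nsq y := by
  have h1 := hr.inner_ev hΩ (sta y * y)
  rw [map_mul, h.ev_sta, ContinuousLinearMap.star_eq_adjoint, mul_apply_eq_comp,
    ContinuousLinearMap.adjoint_inner_right, coeff_one_sta_mul, inner_self_eq_norm_sq_to_K] at h1
  apply Complex.ofReal_injective
  rw [← h1, Complex.ofReal_pow]; rfl

theorem URep.norm_ev_apply (h : URep M π) {Ω : H} (hr : Reg π Ω) (hΩ : ‖Ω‖ = 1) (y : RG Λ) :
    ‖ev π y Ω‖ = √(nsq y) := by
  rw [← h.norm_ev_apply_sq hr hΩ, Real.sqrt_sq (norm_nonneg _)]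

end RepBasic

end Crest.Agent.R134
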