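import Crest.Agent.R134.Defs
import Crest.Prelude.Def_GroupVNA

/-! Row 134: trace vector facts for the group von Neumann algebra. -/

set_option autoImplicit false

namespace Crest.Agent.R134

open scoped InnerProductSpace
open Crest.OpAlg Filter Topology

section General

variable {H : Type*} [NormedAddCommGroup H] [InnerProductSpace ℂ H] [CompleteSpace H]

/-- a bounded sequence of operators that is Cauchy on a total set converges strongly -/
theorem exists_strong_limit (u : ℕ → (H →L[ℂ] H)) (hu : ∀ k, ‖u k‖ ≤ 1) (S : Set H)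
    (hS : Dense (Submodule.span ℂ S : Set H)) (hc : ∀ ξ ∈ S, CauchySeq fun k => u k ξ) :
    ∃ v : H →L[ℂ] H, ∀ ξ, Tendsto (fun k => u k ξ) atTop (𝓝 (v ξ)) := by
  have h1 : ∀ ξ ∈ Submodule.span ℂ S, CauchySeq fun k => u k ξ := by
    intro ξ hξ
    induction hξ using Submodule.span_induction with
    | mem x hx => exact hc x hx
    | zero => simpa using cauchySeq_const (0 : H)
    | add x y _ _ hx hy => simp only [map_add]; exact hx.add hy
    | smul a x _ hx =>
      simp only [map_smul]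
      exact (uniformContinuous_const_smul a).comp_cauchySeq hx
  have h2 : ∀ ξ, CauchySeq fun k => u k ξ := by
    intro ξ
    rw [Metric.cauchySeq_iff]
    intro ε hε
    obtain ⟨η, hη, hd⟩ := hS.exists_dist_lt ξ (show 0 < ε / 3 by positivity)
    obtain ⟨N, hN⟩ := Metric.cauchySeq_iff.1 (h1 η hη) (ε / 3) (by positivity)
    refine ⟨N, fun m hm n hn => ?_⟩
    have hb : ∀ k, dist (u k ξ) (u k η) < ε / 3 := fun k => by
      rw [dist_eq_norm, ← map_sub]
      refine ((u k).le_opNorm _).trans_lt ?_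
      rw [dist_eq_norm] at hd
      exact (mul_le_of_le_one_left (norm_nonneg _) (hu k)).trans_lt hd
    have := dist_triangle4 (u m ξ) (u m η) (u n η) (u n ξ)
    have h3 := hb n
    rw [dist_comm] at h3
    linarith [hb m, hN m hm n hn]
  choose f hf using fun ξ => cauchySeq_tendsto_of_complete (h2 ξ)
  exact ⟨continuousLinearMapOfTendsto u (f := f) (tendsto_pi_nhds.2 hf), hf⟩

theorem norm_le_one_of_mem_unitary {u : H →L[ℂ] H} (hu : u ∈ unitary (H →L[ℂ] H)) : ‖u‖ ≤ 1 :=
  ContinuousLinearMap.opNorm_le_bound _ zero_le_one fun v => by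
    rw [ContinuousLinearMap.norm_map_of_mem_unitary hu, one_mul]

omit [CompleteSpace H] in
theorem mul_eq_one_of_strong {a b : ℕ → (H →L[ℂ] H)} {v w : H →L[ℂ] H} (ha : ∀ k, ‖a k‖ ≤ 1)
    (hv : ∀ ξ, Tendsto (fun k => a k ξ) atTop (𝓝 (v ξ)))
    (hw : ∀ ξ, Tendsto (fun k => b k ξ) atTop (𝓝 (w ξ))) (hab : ∀ k, a k * b k = 1) :
    v * w = 1 := by
  ext ξ
  have h1 : Tendsto (fun k => a k (w ξ - b k ξ)) atTop (𝓝 0) := by
    have h0 : Tendsto (fun k => ‖w ξ - b k ξ‖) atTop (𝓝 0) := by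
      simpa using ((hw ξ).const_sub (w ξ)).norm
    refine squeeze_zero_norm (fun k => ?_) h0
    exact ((a k).le_opNorm _).trans (mul_le_of_le_one_left (norm_nonneg _) (ha k))
  have h2 : Tendsto (fun k => a k (w ξ)) atTop (𝓝 ξ) := by
    have := h1.add_const ξ
    rw [zero_add] at this
    refine this.congr fun k => ?_
    have h3 : a k (b k ξ) = ξ := by rw [← mul_apply_eq_comp, hab, one_apply_eq_self]
    rw [map_sub, h3, sub_add_cancel]
  exact tendsto_nhds_unique (hv (w ξ)) h2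

theorem star_eq_of_strong {a : ℕ → (H →L[ℂ] H)} {v w : H →L[ℂ] H}
    (hv : ∀ ξ, Tendsto (fun k => a k ξ) atTop (𝓝 (v ξ)))
    (hw : ∀ ξ, Tendsto (fun k => star (a k) ξ) atTop (𝓝 (w ξ))) : star v = w := by
  rw [ContinuousLinearMap.star_eq_adjoint, eq_comm, ContinuousLinearMap.eq_adjoint_iff]
  intro x y
  have h1 := (hw x).inner (𝕜 := ℂ) (tendsto_const_nhds (x := y))
  have h2 := (tendsto_const_nhds (x := x)).inner (𝕜 := ℂ) (hv y)
  refine tendsto_nhds_unique h1 (h2.congr fun k => ?_)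
  rw [ContinuousLinearMap.star_eq_adjoint, ContinuousLinearMap.adjoint_inner_left]

omit [CompleteSpace H] in
theorem commute_of_strong {a : ℕ → (H →L[ℂ] H)} {v T : H →L[ℂ] H}
    (hv : ∀ ξ, Tendsto (fun k => a k ξ) atTop (𝓝 (v ξ))) (h : ∀ k, T * a k = a k * T) :
    T * v = v * T := by
  ext ξ
  have h1 := (T.continuous.tendsto _).comp (hv ξ)
  refine tendsto_nhds_unique h1 ((hv (T ξ)).congr fun k => ?_)
  rw [← mul_apply_eq_comp, ← h k]; rfl

end General

variable {G : Type*} [Group G]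

/-- right translation -/
noncomputable def rho (g : G) : ltwo G →L[ℂ] ltwo G :=
  ((ltwoReindex (Equiv.mulRight g) : ltwo G ≃ₗᵢ[ℂ] ltwo G) : ltwo G →L[ℂ] ltwo G)

theorem rho_apply (g : G) (ξ : ltwo G) (h : G) : rho g ξ h = ξ (h * g) := rfl

theorem leftRegular_apply (g : G) (ξ : ltwo G) (h : G) : leftRegular g ξ h = ξ (g⁻¹ * h) := rfl

theorem star_leftRegular (g : G) : star (leftRegular g) = leftRegular g⁻¹ := by
  rw [leftRegular, LinearIsometryEquiv.star_eq_symm]
  ext ξ h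
  change ξ ((Equiv.mulLeft g⁻¹).symm h) = ξ (g⁻¹⁻¹ * h)
  simp

theorem rho_mem (g : G) :
    rho g ∈ StarSubalgebra.centralizer ℂ (Set.range (leftRegular (G := G))) := by
  rw [StarSubalgebra.mem_centralizer_iff]
  have : ∀ k : G, leftRegular k * rho g = rho g * leftRegular k := fun k => by
    ext ξ h
    simp only [mul_apply_eq_comp, rho_apply, leftRegular_apply, mul_assoc]
  rintro _ ⟨k, rfl⟩
  exact ⟨this k, by rw [star_leftRegular]; exact this k⁻¹⟩

theorem mem_groupVNA_iff {x : ltwo G →L[ℂ] ltwo G} :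
    x ∈ (groupVNA G).toStarSubalgebra ↔
      ∀ T ∈ StarSubalgebra.centralizer ℂ (Set.range (leftRegular (G := G))), T * x = x * T := by
  change x ∈ StarSubalgebra.centralizer ℂ _ ↔ _
  rw [StarSubalgebra.mem_centralizer_iff]
  exact ⟨fun h T hT => (h T hT).1, fun h T hT => ⟨h T hT, h _ (star_mem hT)⟩⟩

theorem leftRegular_mem (g : G) : leftRegular g ∈ (groupVNA G).toStarSubalgebra :=
  mem_groupVNA_iff.2 fun _ hT =>
    ((StarSubalgebra.mem_centralizer_iff ℂ).1 hT _ ⟨g, rfl⟩).1.symm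

variable [DecidableEq G]

theorem rho_single (g : G) :
    rho g⁻¹ (lp.single 2 (1 : G) (1 : ℂ)) = (lp.single 2 g (1 : ℂ) : ltwo G) := by
  ext h
  rw [rho_apply, lp.single_apply, lp.single_apply, Pi.single_apply, Pi.single_apply]
  simp [mul_inv_eq_one]

theorem leftRegular_single (g : G) :
    leftRegular g (lp.single 2 (1 : G) (1 : ℂ)) = (lp.single 2 g (1 : ℂ) : ltwo G) := by
  ext h
  rw [leftRegular_apply, lp.single_apply, lp.single_apply, Pi.single_apply, Pi.single_apply]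
  simp [inv_mul_eq_one, eq_comm]

theorem apply_single {x : ltwo G →L[ℂ] ltwo G} (hx : x ∈ (groupVNA G).toStarSubalgebra) (g : G) :
    x (lp.single 2 g (1 : ℂ)) = rho g⁻¹ (x (lp.single 2 (1 : G) (1 : ℂ))) := by
  rw [← rho_single g, ← mul_apply_eq_comp, ← mem_groupVNA_iff.1 hx _ (rho_mem g⁻¹),
    mul_apply_eq_comp]

omit [Group G] in
theorem dense_span_single :
    Dense (Submodule.span ℂ (Set.range fun g : G => (lp.single 2 g (1 : ℂ) : ltwo G)) :
      Set (ltwo G)) := by
  intro ξ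
  have h := lp.hasSum_single (p := 2) (by norm_num) ξ
  refine mem_closure_of_tendsto h (Eventually.of_forall fun s => ?_)
  refine Submodule.sum_mem _ fun g _ => ?_
  have : (lp.single 2 g (ξ g) : ltwo G) = ξ g • lp.single 2 g (1 : ℂ) := by
    rw [← lp.single_smul, smul_eq_mul, mul_one]
  rw [this]
  exact Submodule.smul_mem _ _ (Submodule.subset_span ⟨g, rfl⟩)

theorem norm_star_single {x : ltwo G →L[ℂ] ltwo G} (hx : x ∈ (groupVNA G).toStarSubalgebra) :
    ‖(star x) (lp.single 2 (1 : G) (1 : ℂ))‖ = ‖x (lp.single 2 (1 : G) (1 : ℂ))‖ := by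
  have h : ∀ g : G, ‖(star x) (lp.single 2 (1 : G) (1 : ℂ)) g‖ =
      ‖x (lp.single 2 (1 : G) (1 : ℂ)) g⁻¹‖ := fun g => by
    have h1 : ⟪(lp.single 2 g (1 : ℂ) : ltwo G), (star x) (lp.single 2 (1 : G) (1 : ℂ))⟫_ℂ =
        ⟪x (lp.single 2 g (1 : ℂ)), (lp.single 2 (1 : G) (1 : ℂ) : ltwo G)⟫_ℂ := by
      rw [ContinuousLinearMap.star_eq_adjoint, ContinuousLinearMap.adjoint_inner_right]
    rw [lp.inner_single_left, lp.inner_single_right, apply_single hx g, rho_apply, one_mul] at h1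
    have h2 := congrArg norm h1
    simpa using h2
  rw [lp.norm_eq_tsum_rpow (by norm_num), lp.norm_eq_tsum_rpow (by norm_num)]
  congr 1
  simp only [h]
  exact (Equiv.inv G).tsum_eq
    fun g => ‖x (lp.single 2 (1 : G) (1 : ℂ)) g‖ ^ (2 : ENNReal).toReal

theorem exists_strong_limit_vn (u : ℕ → (ltwo G →L[ℂ] ltwo G))
    (hM : ∀ k, u k ∈ (groupVNA G).toStarSubalgebra) (hu : ∀ k, ‖u k‖ ≤ 1)
    (hc : CauchySeq fun k => u k (lp.single 2 (1 : G) (1 : ℂ))) :
    ∃ v : ltwo G →L[ℂ] ltwo G, ∀ ξ, Tendsto (fun k => u k ξ) atTop (𝓝 (v ξ)) := by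
  refine exists_strong_limit u hu _ dense_span_single ?_
  rintro _ ⟨g, rfl⟩
  simp only [fun k => apply_single (hM k) g]
  exact (rho g⁻¹).uniformContinuous.comp_cauchySeq hc

theorem setup_vn' (G : Type*) [Group G] [DecidableEq G] :
    Setup (groupVNA G).toStarSubalgebra (lp.single 2 (1 : G) (1 : ℂ)) where
  norm_one := by rw [lp.norm_single (by norm_num), norm_one]
  closed := Set.isClosed_centralizer _
  norm_star := fun _ hx => norm_star_single hx
  complete := fun u hM hu hc => by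
    have hu1 : ∀ k, ‖u k‖ ≤ 1 := fun k => norm_le_one_of_mem_unitary (hu k)
    have hu2 : ∀ k, ‖star (u k)‖ ≤ 1 := fun k => by rw [norm_star]; exact hu1 k
    have hc' : CauchySeq fun k => star (u k) (lp.single 2 (1 : G) (1 : ℂ)) := by
      rw [Metric.cauchySeq_iff] at hc ⊢
      intro ε hε
      obtain ⟨N, hN⟩ := hc ε hε
      refine ⟨N, fun m hm n hn => ?_⟩
      have := hN m hm n hn
      rw [dist_eq_norm, ← sub_apply] at this ⊢
      rw [← star_sub, norm_star_single (sub_mem (hM m) (hM n))]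
      exact this
    obtain ⟨v, hv⟩ := exists_strong_limit_vn u hM hu1 hc
    obtain ⟨w, hw⟩ := exists_strong_limit_vn (fun k => star (u k)) (fun k => star_mem (hM k)) hu2 hc'
    refine ⟨v, mem_groupVNA_iff.2 fun T hT =>
      commute_of_strong hv fun k => mem_groupVNA_iff.1 (hM k) T hT, ?_, hv _⟩
    rw [Unitary.mem_iff, star_eq_of_strong hv hw]
    exact ⟨mul_eq_one_of_strong hu2 hw hv fun k => (Unitary.mem_iff.1 (hu k)).1,
      mul_eq_one_of_strong hu1 hv hw fun k => (Unitary.mem_iff.1 (hu k)).2⟩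

end Crest.Agent.R134
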